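import Vale.Agent.P141.H609.RPW
import Vale.Agent.P141.H483.QSh
import Vale.Agent.P141.H747.StageM
import Vale.Agent.P141.H677.GenM

/-!
# P141, line (A): the crude number of the pair of `b` and the stack, one slot: the multiplier

* `ct_RgS` : the averaged slot divided by its cap is a contraction;
* `vk_RgS` : the size of its change is the Hilbert-Schmidt norm of the half difference;
* `tr_cls` : the traces over the root.
-/

namespace Vale.Agent.P141.H840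

open Finset Matrix
open Vale.Agent.P141.PL (Pt iv hs ix mem_iv ix_ix cx)
open Vale.Agent.P141.H433 (Ct)
open Vale.Agent.P141.H822 (vk)
open Vale.Agent.P141.H747 (RgS RgS_le RgS_mart)
open Vale.Agent.P141.H677 (GT KT MT)
open Vale.Agent.P141.H677.Sk (Slt SlotN)

noncomputable section

open scoped Classical

variable {ι : Type} [Fintype ι] [DecidableEq ι]

/-- a symmetric matrix with norm at most one is a contraction -/
theorem ct_of {V : Matrix ι ι ℝ} (hs : Vᵀ = V)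
    (h : ∀ a : ι → ℝ, (V *ᵥ a) ⬝ᵥ (V *ᵥ a) ≤ a ⬝ᵥ a) : Ct V := by
  have h1 : (1 - Vᵀ * V).PosSemidef := by
    refine PosSemidef.of_dotProduct_mulVec_nonneg ?_ fun a => ?_
    · have : (1 - Vᵀ * V)ᵀ = 1 - Vᵀ * V := by
        rw [transpose_sub, transpose_one, transpose_mul, transpose_transpose]
      rw [IsHermitian, conjTranspose_eq_transpose_of_trivial]
      exact this
    · have e : star a ⬝ᵥ (1 - Vᵀ * V) *ᵥ a = a ⬝ᵥ a - (V *ᵥ a) ⬝ᵥ (V *ᵥ a) := by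
        rw [star_trivial, sub_mulVec, one_mulVec, dotProduct_sub, ← mulVec_mulVec,
          dotProduct_mulVec a, vecMul_transpose]
      rw [e]
      linarith [h a]
  exact ⟨h1, by rw [hs] at h1 ⊢; exact h1⟩

theorem RgS_symm {R : Slt ι} {x0 : ℤ} (hR : ∀ z x, (R x0 0 z x)ᵀ = R x0 0 z x) (h h1 : ℤ) (k : ℕ)
    (n x : ℤ) : (RgS R h h1 x0 k n x)ᵀ = RgS R h h1 x0 k n x := by
  unfold H747.RgS
  rw [transpose_smul, transpose_sum]
  simp only [hR]

/-- **The averaged slot divided by its cap is a contraction.** -/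
theorem ct_RgS {R : Slt ι} {x0 : ℤ} (hs : ∀ z x, (R x0 0 z x)ᵀ = R x0 0 z x) {κ : ℝ} (hκ : 0 < κ)
    (hR : ∀ z x, ∀ a : ι → ℝ, (R x0 0 z x *ᵥ a) ⬝ᵥ (R x0 0 z x *ᵥ a) ≤ κ ^ 2 * (a ⬝ᵥ a))
    (h h1 : ℤ) (k : ℕ) (n x : ℤ) : Ct (κ⁻¹ • RgS R h h1 x0 k n x) := by
  refine ct_of ?_ fun a => ?_
  · rw [transpose_smul, RgS_symm hs]
  · have h2 := RgS_le hR h h1 k n x a
    rw [smul_mulVec, smul_dotProduct, dotProduct_smul, smul_eq_mul, smul_eq_mul]
    have h3 : κ⁻¹ * (κ⁻¹ * (κ ^ 2 * (a ⬝ᵥ a))) = a ⬝ᵥ a := by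
      field_simp
    rw [← h3]
    have h4 : 0 ≤ κ⁻¹ := by positivity
    exact mul_le_mul_of_nonneg_left (mul_le_mul_of_nonneg_left h2 h4) h4

/-- **The size of the change of the averaged slot.** -/
theorem vk_RgS (R : Slt ι) (x0 h h1 : ℤ) (κ : ℝ) (k : ℕ) (x j : ℤ) :
    vk (fun k x n => κ⁻¹ • RgS R h h1 x0 k n x) k x j = (κ ^ 2)⁻¹ *
      (((1 / 2 : ℝ) • (RgS R h h1 x0 k (2 * j) x - RgS R h h1 x0 k (2 * j + 1) x)) *
        ((1 / 2 : ℝ) • (RgS R h h1 x0 k (2 * j) x - RgS R h h1 x0 k (2 * j + 1) x))ᵀ).trace := by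
  unfold H822.vk
  have e1 : (κ⁻¹ • RgS R h h1 x0 (k + 1) j x - (1 / 2 : ℝ) • (κ⁻¹ • RgS R h h1 x0 k (2 * j) x +
      κ⁻¹ • RgS R h h1 x0 k (2 * j + 1) x)) = 0 := by
    rw [RgS_mart]
    module
  have e2 : (1 / 2 : ℝ) • (κ⁻¹ • RgS R h h1 x0 k (2 * j) x -
      κ⁻¹ • RgS R h h1 x0 k (2 * j + 1) x) = κ⁻¹ • ((1 / 2 : ℝ) •
        (RgS R h h1 x0 k (2 * j) x - RgS R h h1 x0 k (2 * j + 1) x)) := by module
  rw [e1, e2]
  simp only [transpose_smul, Matrix.smul_mul, Matrix.mul_smul, trace_smul, smul_eq_mul,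
    Matrix.zero_mul, trace_zero, Real.sqrt_zero, add_zero]
  rw [← inv_pow]
  ring

/-- **The traces over the root, class data.** -/
theorem tr_cls {K : ℕ} {p : Pt} {s r P : ℝ} {U : PL.H315.Tri}
    {g : ℤ → ℤ → ℝ} {u v : ℤ → ℤ → ι → ℝ} (h : H305.Cls K p s r P U g u v) :
    ∑ x ∈ iv K (cx K p).1, (GT u x K (cx K p).2.1).trace ≤ 2 ^ K * s := by
  have h2 : (0 : ℝ) < 2 ^ K := by positivity
  have h3 := h.U_u2
  unfold PL.H315.A2 PL.H315.avg at h3
  have e1 : ((PL.H315.iv K p.1).card : ℝ) = 2 ^ K := by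
    rw [PL.H315.card_iv]; push_cast; rfl
  have e2 : ((PL.H315.iv K p.2.1).card : ℝ) = 2 ^ K := by
    rw [PL.H315.card_iv]; push_cast; rfl
  rw [card_product, Nat.cast_mul, e1, e2, inv_mul_le_iff₀ (by positivity), sum_product] at h3
  have h4 : ∑ x ∈ iv K (cx K p).1, (GT u x K (cx K p).2.1).trace ≤
      ∑ x ∈ PL.H315.iv K p.1, (2 ^ K)⁻¹ * ∑ y ∈ PL.H315.iv K p.2.1, U.1 (x, y) ^ 2 := by
    refine sum_le_sum fun x hx => ?_
    rw [H677.GT_trace]
    exact mul_le_mul_of_nonneg_left (sum_le_sum fun y hy => h.u_le x hx y hy) (by positivity)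
  refine h4.trans ?_
  rw [← mul_sum, inv_mul_le_iff₀ h2]
  linarith

end

end Vale.Agent.P141.H840
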