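import Vale.Agent.P141.H609.CrM
import Vale.Agent.P141.H277.PhiS
import Vale.Agent.P141.H829.PairFD
import Vale.Agent.P141.H840.CrA

/-!
# P141, line (A): the crude pair of `b` and the stack, one slot, from the bundle

`WS` : the sum over `x0` of the numbers `wf`, `wh`; `RX_BC_FD` : the pair in the letters of
`H277.Phi.PhiC`, with `WS`.
-/

namespace Vale.Agent.P141.H840

open Finset Matrix
open Vale.Agent.P141.PL (Pt iv hs ix mem_iv ix_ix cx)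
open Vale.Agent.P141.PL.H804 (bx3 bl)
open Vale.Agent.P141.PL.H315 (Tri)
open Vale.Agent.P141.H736 (sqb)
open Vale.Agent.P141.H958 (lbs)
open Vale.Agent.P141.H103 (GW)
open Vale.Agent.P141.H433 (Ct wf wh)
open Vale.Agent.P141.H609.RPW (um eb ec)
open Vale.Agent.P141.H581 (RX)
open Vale.Agent.P141.H795 (ys)
open Vale.Agent.P141.H677 (rv)
open Vale.Agent.P141.H747 (sL sG gA gB gC shA shB shC RgS RgS_le MA MB MC MSb MSc)
open Vale.Agent.P141.H677.Sk (FamA FamV Slt SlotN FDs)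
open Vale.Agent.P141.H305 (Cls)
open Vale.Agent.P141.H576 (QD Dd Dd_sst QD_pack agree_kD)
open Vale.Agent.P141.H829 (packS_QD packS_QD' massC_FD)
open Vale.Agent.P141.H277.Phi (Cz)

noncomputable section

open scoped Classical

variable {ι : Type} [Fintype ι] [DecidableEq ι]

/-- the numbers of the crude pair, summed over `x0` -/
def WS (K : ℕ) (M : Pt) (R : Slt ι) (b C : FamV ι) (L : ℕ) (e : ι ⊕ ι → ℤ) (ε κ : ℝ)
    (s : Pt) (t j : ℤ) (q : Pt) : ℝ :=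
  ∑ x0 ∈ iv K t, (∑ k ∈ range K, GW K (rv (M - q)).2.1 (rv (M - q)).2.2 (rv (M - q)).1
      (k + 1) (ix (k + 1) (ys (-x0) s) - j)
      (wf (um L e ε κ fun k x n => κ⁻¹ • RgS R s.2.2 s.1 x0 k n x)
        (eb L e (fun k x y => Sum.elim (0 : ι → ℝ) (shB K M s (b x0) k x y)) (L + (k + 1)))
        (ec L e (shC K M s (C x0)) (L + (k + 1))) k) +
    ∑ k ∈ range K, wh (um L e ε κ fun k x n => κ⁻¹ • RgS R s.2.2 s.1 x0 k n x)
      (ec L e (shC K M s (C x0)) (L + (k + 1))) K (rv (M - q)).2.2 (rv (M - q)).1 k)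

variable {p : H401.Num} {n : ℕ} {ez : ℝ}
  {F1 F2 F3 : ℕ → Pt → ℝ} {K : ℕ} {x : Pt} {s r P : ℝ} {U : Tri} {g : ℤ → ℤ → ℝ}
  {u v : ℤ → ℤ → ι → ℝ} {A : FamA} {b C : FamV ι} {Q1 Q2 Q3 : ℕ → Pt → Prop}
  {v' : ℤ → ℤ → ι → ℝ}

/-- **The crude pair `(b, C~)` of a bundle**, one slot, one shift, one plane. -/
theorem RX_BC_FD (h : FDs p n ez F1 F2 F3 K x s r U g u v A b C Q1 Q2 Q3 v')
    (hcl : Cls K x s r P U g u v) (hs : 0 ≤ s) (hΛ : 1 ≤ p.Lm) (hCD : 0 ≤ p.CD) (hez : 0 < ez)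
    (hK : K ≤ n) {L : ℕ} {e : ι ⊕ ι → ℤ} (he : Function.Injective e) (hm : ∀ i, e i ∈ lbs L)
    {w : Pt} {j : ℤ} (hj : j ∈ Icc (0 : ℤ) 2) {q : Pt} {t : ℤ} {ε : ℝ} {Al : ℕ → Pt → Prop}
    {o : ℤ} {l κ E : ℝ} {R : Slt ι} (hR : SlotN Al o K (cx K x) l u R κ E) (hκ : 1 ≤ κ)
    (hε : 0 < ε) (hε1 : ε ≤ 1) {h' : ℝ} (hh : 0 < h') :
    RX (iv K t) (K + L) (fun x0 => sL L (sG K (cx K x) (-x0) w j q)) h' h'
      (MB K (cx K x) b L e w) (MC K (cx K x) R (Cz ez C) L e ε w) ≤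
    4 ^ L * ((10 ^ 4 * ((ε + κ) ^ 2 * (ε ^ 2)⁻¹) *
      (64 * (p.cP + 2) * (p.CD * (p.Lm * s) + 4 * (p.Lm * s)) * 8 ^ K +
        WS K (cx K x) R b (Cz ez C) L e ε κ w t j q)) * h' ^ 2) := by
  have hL0 : 0 ≤ p.Lm := by linarith
  have hκ0 : 0 < κ := by linarith
  have hν2 : ((√ez)⁻¹) ^ 2 * ez = 1 := by
    rw [inv_pow, Real.sq_sqrt hez.le, inv_mul_cancel₀ hez.ne']
  have key := H609.CrM.RX_BC_cr (K := K) (L := L) (M := cx K x) (κ := ι) (b := b) (C := Cz ez C)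
    (QB := fun k m => H401.qB p U K Q3 k m.1 m.2.2 m.2.1)
    (QC := fun k m => H401.qC p U K Q2 k m.1 m.2.1 m.2.2) (cP := p.cP + 2)
    (μB := p.CD * (p.Lm * s)) (μC := 4 * (p.Lm * s)) (e := e) he hm
    (fun x0 => by
      funext x' y
      exact h.z0b x0 x' y)
    (fun x0 => by
      funext z x'
      unfold H277.Phi.Cz
      rw [h.C_eq]
      unfold H677.kF
      rw [if_pos (Or.inl rfl), zero_smul, smul_zero]
      rfl)
    (fun x0 k hk n' _ m' _ hQ' y hy x' hx' => h.agb x0 k hk m' n' hQ' x' hx' y hy)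
    (fun x0 k hk n' _ m' _ hQ' z hz x' hx' => by
      unfold H277.Phi.Cz
      rw [h.C_eq, h.C_eq]
      have h1 := agree_kD (Dd_sst p.Lm U.2.1 K) h.B2 (hk.trans_le hK) (x0 := x0) (r := m') (s := n')
        hQ' hx' hz
      rw [H576.kD_sst] at h1
      rw [h1])
    (fun x0 => packS_QD' (Dd_sst p.Lm U.1 K) h.B3 hK x0 _ _)
    (fun x0 => packS_QD' (Dd_sst p.Lm U.2.1 K) h.B2 hK x0 _ _)
    (by positivity) (by positivity)
    (fun k hk i n' hn' m' hm' => by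
      have h1 := h.massb k hk.le (k + 1) (Or.inr ⟨rfl, hk⟩) i m' hm' n' hn'
      exact h1.trans (le_of_eq (mul_comm _ _)))
    (fun k hk i n' hn' m' hm' => by
      have h1 := massC_FD h hcl hΛ hez.le hK k hk i n' hn' m' hm'
      have h2 : ∑ x0 ∈ iv k i, ∑ x' ∈ iv k m', ∑ z ∈ iv k n',
          Cz ez C x0 (k + 1) z x' ⬝ᵥ Cz ez C x0 (k + 1) z x' =
          ((√ez)⁻¹) ^ 2 * ∑ x0 ∈ iv k i, ∑ x' ∈ iv k m', ∑ z ∈ iv k n',
          C x0 (k + 1) z x' ⬝ᵥ C x0 (k + 1) z x' := by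
        simp only [mul_sum]
        refine sum_congr rfl fun x0 _ => sum_congr rfl fun x' _ => sum_congr rfl fun z _ => ?_
        unfold H277.Phi.Cz
        rw [smul_dotProduct, dotProduct_smul, smul_eq_mul, smul_eq_mul]
        ring
      rw [h2]
      refine (mul_le_mul_of_nonneg_left h1 (by positivity)).trans (le_of_eq ?_)
      calc ((√ez)⁻¹) ^ 2 * (8 ^ k * (4 * p.Lm * ez * s)) =
          (((√ez)⁻¹) ^ 2 * ez) * (8 ^ k * (4 * (p.Lm * s))) := by ring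
        _ = _ := by rw [hν2, one_mul])
    (s := w) (j := j) hj (q := q) (t := t) (ε := ε) (κ₀ := κ) (h := h') hε hε1 hκ0 hh
    (Qg := fun x0 k n' x' => RgS R w.2.2 w.1 x0 k n' x')
    (fun x0 _ k n' x' a => RgS_le (fun z x'' a' => hR.cap x0 0 (Nat.zero_le _) z x'' a')
      w.2.2 w.1 k n' x' a)
  refine (le_of_eq ?_).trans (key.trans (le_of_eq ?_))
  · rfl
  · unfold WS
    ring

end

end Vale.Agent.P141.H840
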