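import Vale.Agent.P141.H840.CrB
import Vale.Agent.P141.H433.CrW
import Vale.Agent.P141.H639.NumC
import Vale.Agent.P141.H636.FibF

/-!
# P141, line (A), flow part: the crude pair of hub `x1`, as a part

* `num_S` : the masses and the number of one slot in the letters of `num_C`;
* `phiC : PartS FDU PhiC`.
-/

namespace Vale.Agent.P141.H840

open Finset Matrix
open Vale.Agent.P141.PL (Pt iv hs ix mem_iv ix_ix cb mem_cb cx)
open Vale.Agent.P141.PL.H315 (Tri)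
open Vale.Agent.P141.H958 (lbs)
open Vale.Agent.P141.H581 (RX)
open Vale.Agent.P141.H401 (Num Bun FibU FibP)
open Vale.Agent.P141.H747 (sL sG MA MB MC)
open Vale.Agent.P141.H677.Sk (FamA FamV Slt SlotN FDs FD lam1)
open Vale.Agent.P141.H795 (E8)
open Vale.Agent.P141.H305 (Cls ClsM kapM)
open Vale.Agent.P141.H186.PS
open Vale.Agent.P141.H277.Phi

noncomputable section

open scoped Classical

/-- the masses and the number of one slot -/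
theorem num_S {cP CD e D m1 s κ l1 l W : ℝ} {K : ℕ} (hcP : 0 ≤ cP) (hCD : 0 ≤ CD) (he : 0 ≤ e)
    (hs : 0 ≤ s) (hm1 : 0 ≤ m1) (hκ : 1 ≤ κ) (hl1 : 0 ≤ l1) (hl : 0 < l)
    (hD : D = 128 * (cP + 2) * (CD + 4) + 204600 * e)
    (hW : W ≤ (κ ^ 2)⁻¹ * (204600 * (e * l1) * ((2 * l)⁻¹ * (s * 8 ^ K)))) :
    64 * (cP + 2) * (CD * (m1 * s) + 4 * (m1 * s)) * 8 ^ K + W ≤
      D / 2 * (m1 * s * 8 ^ K) + D / 2 * l1 * l⁻¹ * s * 8 ^ K := by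
  have hA : 0 ≤ 128 * (cP + 2) * (CD + 4) := by positivity
  have hB : 0 ≤ 204600 * e := by positivity
  have h8 : (0 : ℝ) < 8 ^ K := by positivity
  have e1 : 64 * (cP + 2) * (CD * (m1 * s) + 4 * (m1 * s)) * 8 ^ K =
      128 * (cP + 2) * (CD + 4) / 2 * (m1 * s * 8 ^ K) := by ring
  have e2 : 128 * (cP + 2) * (CD + 4) / 2 * (m1 * s * 8 ^ K) ≤ D / 2 * (m1 * s * 8 ^ K) := by
    refine mul_le_mul_of_nonneg_right ?_ (by positivity)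
    linarith
  have h1 : (κ ^ 2)⁻¹ ≤ 1 := inv_le_one_of_one_le₀ (one_le_pow₀ hκ)
  have h2 : 0 ≤ 204600 * (e * l1) * ((2 * l)⁻¹ * (s * 8 ^ K)) := by positivity
  have h3 : 204600 * (e * l1) * ((2 * l)⁻¹ * (s * 8 ^ K)) =
      204600 * e / 4 * (2 * (l1 * l⁻¹ * s * 8 ^ K)) := by
    rw [mul_inv]
    ring
  have h4 : 204600 * e / 4 * (2 * (l1 * l⁻¹ * s * 8 ^ K)) ≤ D / 2 * (l1 * l⁻¹ * s * 8 ^ K) := by
    have h5 : 0 ≤ l1 * l⁻¹ * s * 8 ^ K := by positivity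
    calc 204600 * e / 4 * (2 * (l1 * l⁻¹ * s * 8 ^ K)) =
        204600 * e / 2 * (l1 * l⁻¹ * s * 8 ^ K) := by ring
      _ ≤ D / 2 * (l1 * l⁻¹ * s * 8 ^ K) := by
        refine mul_le_mul_of_nonneg_right ?_ h5
        linarith
  have h5 : W ≤ D / 2 * (l1 * l⁻¹ * s * 8 ^ K) :=
    hW.trans ((mul_le_of_le_one_left h2 h1).trans (h3.le.trans h4))
  have e4 : D / 2 * l1 * l⁻¹ * s * 8 ^ K = D / 2 * (l1 * l⁻¹ * s * 8 ^ K) := by ring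
  rw [e1, e4]
  exact add_le_add e2 h5

/-- the scalar lemma in the letters of `PhiC` -/
theorem num_Cp {p : H401.Num} {r s κ m D X : ℝ} {K : ℕ} (ht : 0 < p.t) (ht1 : p.t ≤ 1)
    (hr : 1 ≤ r) (hs : 0 < s) (he0 : 0 < p.e0) (he01 : p.e0 ≤ 1) (hc : 0 ≤ p.c) (hd : 0 ≤ p.d)
    (hκ : 1 ≤ κ) (hm : 0 < m) (hm1 : m ≤ 1) (hD : 0 ≤ D) (hX : 40000 * D + 12 ≤ X) :
    10 ^ 4 * ((m ^ (1 / 4 : ℝ) + κ) ^ 2 * ((m ^ (1 / 4 : ℝ)) ^ 2)⁻¹) *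
      (D / 2 * (p.Lm * s * 8 ^ K) + D / 2 * lam1 p s r * (p.lam s r)⁻¹ * s * 8 ^ K) * m ≤
      X * MM p s r κ K * HH p r κ X := by
  unfold MM HH lgS Num.Lm lam1 Num.lam
  exact H639.NumL.num_C ht ht1 hr hs he0 he01 hc hd hκ hm hm1 hD hX

variable {ι : Type} [Fintype ι] [DecidableEq ι] {n : ℕ} {ez : ℝ}
  {F1 F2 F3 : ℕ → Pt → ℝ} {K : ℕ} {x : Pt} {s r P : ℝ} {U : Tri} {g : ℤ → ℤ → ℝ}
  {u v : ℤ → ℤ → ι → ℝ} {A : FamA} {b C : FamV ι} {Q1 Q2 Q3 : ℕ → Pt → Prop}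
  {v' : ℤ → ℤ → ι → ℝ}

/-- **`PhiC` at one slot.** -/
theorem one_C {p : H401.Num} {D : ℝ} (hF : FDs p n ez F1 F2 F3 K x s r U g u v A b C Q1 Q2 Q3 v')
    (hcl : Cls K x s r P U g u v) (hf : FibU p K x s r U u) (ht : 0 < p.t) (ht1 : p.t ≤ 1)
    (hr : 1 ≤ r) (hs : 0 < s) (he0 : 0 < p.e0) (he01 : p.e0 ≤ 1) (hc : 0 ≤ p.c) (hd : 0 ≤ p.d)
    (he : 1 ≤ p.e) (hcP : 0 ≤ p.cP) (hCD : 1 ≤ p.CD) (hK : K ≤ n) {o : ℤ}
    (ho : o = 1 ∨ o = -1) {R : Slt ι} {κ E : ℝ} (hκ : 1 ≤ κ)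
    (hsl : SlotN (p.al U K) o K (cx K x) (p.lam s r) u R κ E) {h : Pt} (hh : h ∈ cb K 0) {j : ℤ}
    (hj : j ∈ Icc (0 : ℤ) 2) {q : Pt} (hq : q ∈ E8)
    (hD : D = 128 * (p.cP + 2) * (p.CD + 4) + 204600 * p.e) :
    PhiC ι p n ez F1 F2 F3 o K x s r U g u v A b C R κ E h j q (40000 * D + 12) := by
  intro hez m N0 hm hm1 hN0 _ t' _ Lb eb heb hmb
  have hD0 : 0 ≤ D := by
    have h3 : 0 ≤ p.e := by linarith
    rw [hD]
    positivity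
  have hl1 : 0 < lam1 p s r := H401.lam1_pos ht hs hr
  have hl : 0 < p.lam s r := H401.Num.lam_pos ht hs hr
  have hLm : 1 ≤ p.Lm := H401.Num.Lm_ge ht ht1 hd
  have hCD0 : 0 ≤ p.CD := by linarith
  have hp0 : 0 ≤ p.e := by linarith
  have hLm0 : 0 ≤ p.Lm := by linarith
  have hκ0 : 0 < κ := by linarith
  have hε : 0 < m ^ (1 / 4 : ℝ) := Real.rpow_pos_of_pos hm _
  have hε1 : m ^ (1 / 4 : ℝ) ≤ 1 := Real.rpow_le_one hm.le hm1 (by norm_num)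
  have key := num_Cp (κ := κ) (K := K) ht ht1 hr hs he0 he01 hc hd hκ hm hm1 hD0
    (le_refl (40000 * D + 12))
  have hS := num_S (K := K) hcP hCD0 hp0 hs.le hLm0 hκ hl1.le hl hD
    (H433.CrW.WS_le hF hcl hf he hl1.le hez hK heb hmb hh j t' hq hε hsl hl ho hκ0)
  have h2 : 0 ≤ HH p r κ (40000 * D + 12) :=
    zero_le_one.trans (HH_one ht ht1 hr hκ (by linarith))
  have hY0 : 0 ≤ 10 ^ 4 * ((m ^ (1 / 4 : ℝ) + κ) ^ 2 * ((m ^ (1 / 4 : ℝ)) ^ 2)⁻¹) := by positivity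
  have hZ0 : 0 ≤ D / 2 * (p.Lm * s * 8 ^ K) + D / 2 * lam1 p s r * (p.lam s r)⁻¹ * s * 8 ^ K := by
    positivity
  have h3 : 0 ≤ 40000 * D + 12 := by linarith
  refine ⟨_, mul_nonneg hY0 hZ0, key.trans ?_, fun h' hh' _ => ?_⟩
  · exact mul_le_mul_of_nonneg_right (mul_le_mul_of_nonneg_left
      (le_add_of_nonneg_left hN0) h3) h2
  · refine (RX_BC_FD hF hcl hs.le hLm hCD0 hez hK heb hmb (w := h) hj (q := q) (t := t') hsl hκ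
      hε hε1 hh').trans ?_
    exact mul_le_mul_of_nonneg_left (mul_le_mul_of_nonneg_right
      (mul_le_mul_of_nonneg_left hS hY0) (sq_nonneg _)) (by positivity)

/-- **The crude pair of hub `x1`, as a part.** -/
theorem phiC : PartS H636.FDU PhiC := by
  intro a ha ha1
  refine ⟨1, one_pos, le_rfl, fun e0 he0 he01 => ?_⟩
  refine ⟨1, one_pos, fun k8 hk8 _ => ?_⟩
  refine ⟨1, one_pos, fun k3 hk3 _ => ?_⟩
  refine ⟨1, 1, one_pos, one_pos, fun c hc _ d hd _ Kt e cP L hKt he hcP hL CD hCD => ?_⟩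
  have hD0 : 0 ≤ 128 * (cP + 2) * (CD + 4) + 204600 * e := by positivity
  refine ⟨40000 * (128 * (cP + 2) * (CD + 4) + 204600 * e) + 12, by linarith, ?_⟩
  intro t ht ht1 n ez F1 F2 F3 _ _ _ o ho K hKn x ι _ _ s r U g u v hs hr hcls A b' C' hFD
    R κ E hκ hE hEL hsl h hh j hj q hq
  obtain ⟨hfU, _, Q1, Q2, Q3, v', hF⟩ := hFD
  exact one_C hF hcls.toCls hfU ht ht1 hr hs he0 he01 hc hd.le he hcP hCD hKn ho hκ hsl hh hj hq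
    rfl

end

end Vale.Agent.P141.H840
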